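import Vale.Agent.P340.Subst

/-!
# P340: confluence of β-reduction
-/

universe u

namespace Vale.Agent.P340

open Relation

variable {S : Type u}

/-- Many β-steps. -/
abbrev Steps : Tm S → Tm S → Prop := ReflTransGen Step

theorem Step.rename {M N : Tm S} (h : Step M N) :
    ∀ ξ : ℕ → ℕ, Step (M.rename ξ) (N.rename ξ) := by
  induction h with
  | beta A b N => intro ξ; rw [Tm.inst_rename]; exact .beta _ _ _
  | appL a _ ih => exact fun ξ => .appL _ (ih ξ)
  | appR f _ ih => exact fun ξ => .appR _ (ih ξ)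
  | lamL b _ ih => exact fun ξ => .lamL _ (ih ξ)
  | lamR A _ ih => exact fun ξ => .lamR _ (ih _)
  | piL b _ ih => exact fun ξ => .piL _ (ih ξ)
  | piR A _ ih => exact fun ξ => .piR _ (ih _)

theorem Step.subst {M N : Tm S} (h : Step M N) :
    ∀ σ : ℕ → Tm S, Step (M.subst σ) (N.subst σ) := by
  induction h with
  | beta A b N => intro σ; rw [Tm.inst_subst]; exact .beta _ _ _
  | appL a _ ih => exact fun σ => .appL _ (ih σ)
  | appR f _ ih => exact fun σ => .appR _ (ih σ)
  | lamL b _ ih => exact fun σ => .lamL _ (ih σ)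
  | lamR A _ ih => exact fun σ => .lamR _ (ih _)
  | piL b _ ih => exact fun σ => .piL _ (ih σ)
  | piR A _ ih => exact fun σ => .piR _ (ih _)

theorem Steps.app {f f' a a' : Tm S} (hf : Steps f f') (ha : Steps a a') :
    Steps (.app f a) (.app f' a') :=
  (hf.lift (fun x => Tm.app x a) fun _ _ h => .appL a h).trans
    (ha.lift (fun x => Tm.app f' x) fun _ _ h => .appR f' h)

theorem Steps.lam {A A' b b' : Tm S} (hA : Steps A A') (hb : Steps b b') :
    Steps (.lam A b) (.lam A' b') :=
  (hA.lift (fun x => Tm.lam x b) fun _ _ h => .lamL b h).trans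
    (hb.lift (fun x => Tm.lam A' x) fun _ _ h => .lamR A' h)

theorem Steps.pi {A A' b b' : Tm S} (hA : Steps A A') (hb : Steps b b') :
    Steps (.pi A b) (.pi A' b') :=
  (hA.lift (fun x => Tm.pi x b) fun _ _ h => .piL b h).trans
    (hb.lift (fun x => Tm.pi A' x) fun _ _ h => .piR A' h)

theorem Steps.substR (M : Tm S) :
    ∀ {σ τ : ℕ → Tm S}, (∀ n, Steps (σ n) (τ n)) → Steps (M.subst σ) (M.subst τ) := by
  induction M with
  | var n => exact fun h => h n
  | sort s => exact fun _ => .refl
  | app f a hf ha => exact fun h => Steps.app (hf h) (ha h)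
  | lam A b hA hb =>
    exact fun h => Steps.lam (hA h) (hb fun n => by
      cases n with
      | zero => exact .refl
      | succ n => exact (h n).lift _ fun _ _ h' => h'.rename _)
  | pi A b hA hb =>
    exact fun h => Steps.pi (hA h) (hb fun n => by
      cases n with
      | zero => exact .refl
      | succ n => exact (h n).lift _ fun _ _ h' => h'.rename _)

/-- Parallel reduction. -/
inductive Par : Tm S → Tm S → Prop where
  | var (n : ℕ) : Par (.var n) (.var n)
  | sort (s : S) : Par (.sort s) (.sort s)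
  | app {f f' a a' : Tm S} : Par f f' → Par a a' → Par (.app f a) (.app f' a')
  | lam {A A' b b' : Tm S} : Par A A' → Par b b' → Par (.lam A b) (.lam A' b')
  | pi {A A' b b' : Tm S} : Par A A' → Par b b' → Par (.pi A b) (.pi A' b')
  | beta (A : Tm S) {b b' a a' : Tm S} :
      Par b b' → Par a a' → Par (.app (.lam A b) a) (b'.inst a')

theorem Par.refl : ∀ M : Tm S, Par M M
  | .var n => .var n
  | .sort s => .sort s
  | .app f a => .app (Par.refl f) (Par.refl a)
  | .lam A b => .lam (Par.refl A) (Par.refl b)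
  | .pi A b => .pi (Par.refl A) (Par.refl b)

theorem Step.par {M N : Tm S} (h : Step M N) : Par M N := by
  induction h with
  | beta A b N => exact .beta A (.refl _) (.refl _)
  | appL a _ ih => exact .app ih (.refl _)
  | appR f _ ih => exact .app (.refl _) ih
  | lamL b _ ih => exact .lam ih (.refl _)
  | lamR A _ ih => exact .lam (.refl _) ih
  | piL b _ ih => exact .pi ih (.refl _)
  | piR A _ ih => exact .pi (.refl _) ih

theorem Par.steps {M N : Tm S} (h : Par M N) : Steps M N := by
  induction h with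
  | var n => exact .refl
  | sort s => exact .refl
  | app _ _ ihf iha => exact Steps.app ihf iha
  | lam _ _ ihA ihb => exact Steps.lam ihA ihb
  | pi _ _ ihA ihb => exact Steps.pi ihA ihb
  | beta A _ _ ihb iha => exact (Steps.app (Steps.lam .refl ihb) iha).tail (.beta _ _ _)

theorem Par.rename {M N : Tm S} (h : Par M N) :
    ∀ ξ : ℕ → ℕ, Par (M.rename ξ) (N.rename ξ) := by
  induction h with
  | var n => exact fun _ => .var _
  | sort s => exact fun _ => .sort _
  | app _ _ ihf iha => exact fun ξ => .app (ihf ξ) (iha ξ)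
  | lam _ _ ihA ihb => exact fun ξ => .lam (ihA ξ) (ihb _)
  | pi _ _ ihA ihb => exact fun ξ => .pi (ihA ξ) (ihb _)
  | beta A _ _ ihb iha => intro ξ; rw [Tm.inst_rename]; exact .beta _ (ihb _) (iha ξ)

theorem Par.up {σ τ : ℕ → Tm S} (h : ∀ n, Par (σ n) (τ n)) :
    ∀ n, Par (Tm.up σ n) (Tm.up τ n)
  | 0 => .var 0
  | n + 1 => (h n).rename _

theorem Par.subst {M N : Tm S} (h : Par M N) :
    ∀ {σ τ : ℕ → Tm S}, (∀ n, Par (σ n) (τ n)) → Par (M.subst σ) (N.subst τ) := by
  induction h with
  | var n => exact fun h => h n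
  | sort s => exact fun _ => .sort _
  | app _ _ ihf iha => exact fun h => .app (ihf h) (iha h)
  | lam _ _ ihA ihb => exact fun h => .lam (ihA h) (ihb (Par.up h))
  | pi _ _ ihA ihb => exact fun h => .pi (ihA h) (ihb (Par.up h))
  | beta A _ _ ihb iha =>
    intro σ τ h; rw [Tm.inst_subst]; exact .beta _ (ihb (Par.up h)) (iha h)

theorem Par.inst {b b' a a' : Tm S} (hb : Par b b') (ha : Par a a') :
    Par (b.inst a) (b'.inst a') :=
  hb.subst fun n => by cases n with
    | zero => exact ha
    | succ n => exact .var n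

/-- The body of a contractible application, if any. -/
def lamBody : Tm S → Option (Tm S)
  | .lam _ b => some b
  | _ => none

/-- Complete development. -/
def dev : Tm S → Tm S
  | .var n => .var n
  | .sort s => .sort s
  | .lam A b => .lam (dev A) (dev b)
  | .pi A b => .pi (dev A) (dev b)
  | .app (.lam _ b) a => (dev b).inst (dev a)
  | .app f a => .app (dev f) (dev a)

theorem Par.triangle {M N : Tm S} (h : Par M N) : Par N (dev M) := by
  induction h with
  | var n => exact .var n
  | sort s => exact .sort s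
  | lam _ _ ihA ihb => exact .lam ihA ihb
  | pi _ _ ihA ihb => exact .pi ihA ihb
  | beta A _ _ ihb iha => exact ihb.inst iha
  | @app f f' a a' hf _ ihf iha =>
    cases hl : f with
    | lam A b =>
      subst hl
      cases hf with
      | lam hA hb =>
        cases ihf with
        | lam _ hb' => exact .beta _ hb' iha
    | var n => subst hl; exact .app ihf iha
    | sort s => subst hl; exact .app ihf iha
    | app g c => subst hl; exact .app ihf iha
    | pi A b => subst hl; exact .app ihf iha

theorem confluence {M N₁ N₂ : Tm S} (h₁ : Steps M N₁) (h₂ : Steps M N₂) :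
    ∃ L, Steps N₁ L ∧ Steps N₂ L := by
  have toPar : ∀ {a b : Tm S}, Steps a b → ReflTransGen Par a b :=
    fun h => ReflTransGen.mono (fun _ _ => Step.par) _ _ h
  have ofPar : ∀ {a b : Tm S}, ReflTransGen Par a b → Steps a b := fun h => by
    induction h with
    | refl => exact .refl
    | tail _ h' ih => exact ih.trans h'.steps
  obtain ⟨L, h3, h4⟩ := church_rosser
    (fun a b c hab hac => ⟨dev a, .single hab.triangle, .single hac.triangle⟩) (toPar h₁) (toPar h₂)
  exact ⟨L, ofPar h3, ofPar h4⟩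

theorem Conv.rfl {M : Tm S} : Conv M M := .refl M

theorem Steps.conv {M N : Tm S} (h : Steps M N) : Conv M N := by
  induction h with
  | refl => exact .refl _
  | tail _ h' ih => exact .trans _ _ _ ih (.rel _ _ h')

theorem Conv.join {M N : Tm S} (h : Conv M N) : ∃ L, Steps M L ∧ Steps N L := by
  induction h with
  | rel a b h => exact ⟨b, .single h, .refl⟩
  | refl a => exact ⟨a, .refl, .refl⟩
  | symm a b _ ih => obtain ⟨L, h1, h2⟩ := ih; exact ⟨L, h2, h1⟩
  | trans a b c _ _ ih₁ ih₂ =>
    obtain ⟨L₁, h1, h2⟩ := ih₁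
    obtain ⟨L₂, h3, h4⟩ := ih₂
    obtain ⟨L, h5, h6⟩ := confluence h2 h3
    exact ⟨L, h1.trans h5, h4.trans h6⟩

theorem Conv.symm' {M N : Tm S} (h : Conv M N) : Conv N M := .symm _ _ h

theorem Conv.trans' {M N L : Tm S} (h : Conv M N) (h' : Conv N L) : Conv M L :=
  .trans _ _ _ h h'

theorem Conv.of_join {M N L : Tm S} (h : Steps M L) (h' : Steps N L) : Conv M N :=
  h.conv.trans' h'.conv.symm'

theorem Conv.subst {M N : Tm S} (h : Conv M N) (σ : ℕ → Tm S) :
    Conv (M.subst σ) (N.subst σ) := by
  induction h with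
  | rel a b h => exact .rel _ _ (h.subst σ)
  | refl a => exact .refl _
  | symm a b _ ih => exact .symm _ _ ih
  | trans a b c _ _ ih₁ ih₂ => exact .trans _ _ _ ih₁ ih₂

theorem Conv.rename {M N : Tm S} (h : Conv M N) (ξ : ℕ → ℕ) :
    Conv (M.rename ξ) (N.rename ξ) := by
  rw [Tm.rename_eq_subst, Tm.rename_eq_subst]; exact h.subst _

theorem Steps.sort_eq {s : S} {M : Tm S} (h : Steps (.sort s) M) : M = .sort s := by
  induction h with
  | refl => rfl
  | tail _ h' ih => subst ih; cases h'

theorem Steps.pi_inv {A B M : Tm S} (h : Steps (.pi A B) M) :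
    ∃ A' B', M = .pi A' B' ∧ Steps A A' ∧ Steps B B' := by
  induction h with
  | refl => exact ⟨A, B, rfl, .refl, .refl⟩
  | tail _ h' ih =>
    obtain ⟨A', B', rfl, hA, hB⟩ := ih
    cases h' with
    | piL _ h => exact ⟨_, _, rfl, hA.tail h, hB⟩
    | piR _ h => exact ⟨_, _, rfl, hA, hB.tail h⟩

theorem Conv.sort_inj {s t : S} (h : Conv (.sort s : Tm S) (.sort t)) : s = t := by
  obtain ⟨L, h1, h2⟩ := h.join
  have := h1.sort_eq.symm.trans h2.sort_eq
  injection this

theorem Conv.steps_sort {s : S} {M : Tm S} (h : Conv M (.sort s)) : Steps M (.sort s) := by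
  obtain ⟨L, h1, h2⟩ := h.join
  exact h2.sort_eq ▸ h1

theorem Conv.pi_inj {A B A' B' : Tm S} (h : Conv (.pi A B) (.pi A' B')) :
    Conv A A' ∧ Conv B B' := by
  obtain ⟨L, h1, h2⟩ := h.join
  obtain ⟨A₁, B₁, rfl, a1, b1⟩ := h1.pi_inv
  obtain ⟨A₂, B₂, he, a2, b2⟩ := h2.pi_inv
  injection he with e1 e2
  subst e1 e2
  exact ⟨.of_join a1 a2, .of_join b1 b2⟩

theorem Conv.not_sort_pi {s : S} {A B : Tm S} : ¬ Conv (.sort s) (.pi A B) := fun h => by
  obtain ⟨L, h1, h2⟩ := h.join
  obtain ⟨A', B', rfl, -, -⟩ := h2.pi_inv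
  cases h1.sort_eq

end Vale.Agent.P340
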