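import Mathlib

/-!
# P340: pure type systems with de Bruijn indices, weak and strong normalization
-/

universe u

namespace Vale.Agent.P340

/-- A pure type specification. -/
structure Spec (S : Type u) where
  Ax : S → S → Prop
  Rule : S → S → S → Prop

/-- Expressions, bound variables as de Bruijn indices. -/
inductive Tm (S : Type u) where
  | var (n : ℕ)
  | sort (s : S)
  | app (f a : Tm S)
  | lam (A b : Tm S)
  | pi (A B : Tm S)

namespace Tm

variable {S : Type u}

/-- Lift a renaming under a binder. -/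
def upRen (ξ : ℕ → ℕ) : ℕ → ℕ
  | 0 => 0
  | n + 1 => ξ n + 1

/-- Renaming of variables. -/
def rename (ξ : ℕ → ℕ) : Tm S → Tm S
  | var n => var (ξ n)
  | sort s => sort s
  | app f a => app (f.rename ξ) (a.rename ξ)
  | lam A b => lam (A.rename ξ) (b.rename (upRen ξ))
  | pi A B => pi (A.rename ξ) (B.rename (upRen ξ))

/-- Shift all free variables by one. -/
def lift (M : Tm S) : Tm S := M.rename Nat.succ

/-- Lift a substitution under a binder. -/
def up (σ : ℕ → Tm S) : ℕ → Tm S
  | 0 => var 0
  | n + 1 => (σ n).lift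

/-- Simultaneous substitution. -/
def subst (σ : ℕ → Tm S) : Tm S → Tm S
  | var n => σ n
  | sort s => sort s
  | app f a => app (f.subst σ) (a.subst σ)
  | lam A b => lam (A.subst σ) (b.subst (up σ))
  | pi A B => pi (A.subst σ) (B.subst (up σ))

/-- The substitution replacing the last variable by `N`. -/
def single (N : Tm S) : ℕ → Tm S
  | 0 => N
  | n + 1 => var n

/-- Instantiate the last variable. -/
def inst (M N : Tm S) : Tm S := M.subst (single N)

end Tm

variable {S : Type u}

/-- One β-step, in any subexpression. -/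
inductive Step : Tm S → Tm S → Prop where
  | beta (A b N : Tm S) : Step (.app (.lam A b) N) (b.inst N)
  | appL {f f' : Tm S} (a : Tm S) : Step f f' → Step (.app f a) (.app f' a)
  | appR (f : Tm S) {a a' : Tm S} : Step a a' → Step (.app f a) (.app f a')
  | lamL {A A' : Tm S} (b : Tm S) : Step A A' → Step (.lam A b) (.lam A' b)
  | lamR (A : Tm S) {b b' : Tm S} : Step b b' → Step (.lam A b) (.lam A b')
  | piL {A A' : Tm S} (B : Tm S) : Step A A' → Step (.pi A B) (.pi A' B)
  | piR (A : Tm S) {B B' : Tm S} : Step B B' → Step (.pi A B) (.pi A B')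

/-- β-equivalence. -/
def Conv : Tm S → Tm S → Prop := Relation.EqvGen Step

/-- Typing; the head of the context is the last declared variable. -/
inductive Typed (P : Spec S) : List (Tm S) → Tm S → Tm S → Prop where
  | ax {s₁ s₂ : S} : P.Ax s₁ s₂ → Typed P [] (.sort s₁) (.sort s₂)
  | var {Γ : List (Tm S)} {A : Tm S} {s : S} :
      Typed P Γ A (.sort s) → Typed P (A :: Γ) (.var 0) A.lift
  | weak {Γ : List (Tm S)} {M B A : Tm S} {s : S} :
      Typed P Γ M B → Typed P Γ A (.sort s) → Typed P (A :: Γ) M.lift B.lift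
  | prod {Γ : List (Tm S)} {A B : Tm S} {s₁ s₂ s₃ : S} :
      Typed P Γ A (.sort s₁) → Typed P (A :: Γ) B (.sort s₂) → P.Rule s₁ s₂ s₃ →
        Typed P Γ (.pi A B) (.sort s₃)
  | lam {Γ : List (Tm S)} {A B M : Tm S} {s : S} :
      Typed P (A :: Γ) M B → Typed P Γ (.pi A B) (.sort s) →
        Typed P Γ (.lam A M) (.pi A B)
  | app {Γ : List (Tm S)} {A B M N : Tm S} :
      Typed P Γ M (.pi A B) → Typed P Γ N A → Typed P Γ (.app M N) (B.inst N)
  | conv {Γ : List (Tm S)} {A B M : Tm S} {s : S} :
      Typed P Γ M A → Typed P Γ B (.sort s) → Conv A B → Typed P Γ M B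

/-- An expression is legal if it is the subject or the type of a derivable judgment. -/
def Legal (P : Spec S) (M : Tm S) : Prop :=
  ∃ Γ, (∃ A, Typed P Γ M A) ∨ ∃ N, Typed P Γ N M

/-- Every legal expression reduces to a normal form. -/
def WeaklyNormalizing (P : Spec S) : Prop :=
  ∀ M, Legal P M → ∃ N, Relation.ReflTransGen Step M N ∧ ∀ N', ¬ Step N N'

/-- No legal expression starts an infinite reduction sequence. -/
def StronglyNormalizing (P : Spec S) : Prop :=
  ∀ M, Legal P M → ¬ ∃ f : ℕ → Tm S, f 0 = M ∧ ∀ n, Step (f n) (f (n + 1))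

/-- Generalized nondependent specifications: functional acyclic axioms, and every rule is
`(s₁, s₂, s₂)` with `s₁` reachable from `s₂` by axioms. -/
structure Spec.IsGND (P : Spec S) : Prop where
  functional : ∀ {a b c : S}, P.Ax a b → P.Ax a c → b = c
  acyclic : ∀ a : S, ¬ Relation.TransGen P.Ax a a
  rule : ∀ {a b c : S}, P.Rule a b c → c = b ∧ Relation.ReflTransGen P.Ax b a

end Vale.Agent.P340
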