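import Vale.Agent.P340.Confluence

/-!
# P340: standard metatheory (substitution, generation, subject reduction, uniqueness of types)
-/

universe u

namespace Vale.Agent.P340

open Relation Tm

variable {S : Type u} {P : Spec S}

/-- `At Γ n A`: variable `n` is declared in `Γ` with type `A`, read in `Γ`. -/
inductive At : List (Tm S) → ℕ → Tm S → Prop where
  | zero (A : Tm S) (Γ : List (Tm S)) : At (A :: Γ) 0 A.lift
  | succ {A : Tm S} {Γ : List (Tm S)} {n : ℕ} (B : Tm S) :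
      At Γ n A → At (B :: Γ) (n + 1) A.lift

theorem At.unique {Γ : List (Tm S)} {n : ℕ} {A B : Tm S} (h : At Γ n A) (h' : At Γ n B) :
    A = B := by
  induction h generalizing B with
  | zero A Γ => cases h'; rfl
  | succ C _ ih => cases h' with | succ _ h'' => rw [ih h'']

/-- Every declared type has a sort. -/
inductive WF (P : Spec S) : List (Tm S) → Prop where
  | nil : WF P []
  | cons {Γ : List (Tm S)} {A : Tm S} {s : S} :
      WF P Γ → Typed P Γ A (.sort s) → WF P (A :: Γ)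

theorem Typed.wf {Γ : List (Tm S)} {M A : Tm S} (h : Typed P Γ M A) : WF P Γ := by
  induction h with
  | ax => exact .nil
  | var h ih => exact .cons ih h
  | weak _ hA ih _ => exact .cons ih hA
  | prod _ _ _ ih _ => exact ih
  | lam _ _ _ ih => exact ih
  | app _ _ ih _ => exact ih
  | conv _ _ _ ih _ => exact ih

theorem Typed.ax' {Γ : List (Tm S)} (h : WF P Γ) {s₁ s₂ : S} (ha : P.Ax s₁ s₂) :
    Typed P Γ (.sort s₁) (.sort s₂) := by
  induction h with
  | nil => exact .ax ha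
  | cons _ hA ih => exact .weak ih hA

theorem Typed.var' {Γ : List (Tm S)} {n : ℕ} {A : Tm S} (h : WF P Γ) (ha : At Γ n A) :
    Typed P Γ (.var n) A := by
  induction ha with
  | zero A Γ => cases h with | cons _ hA => exact .var hA
  | succ B _ ih => cases h with | cons hΓ hB => exact .weak (ih hΓ) hB

theorem At.typed {Γ : List (Tm S)} {n : ℕ} {A : Tm S} (ha : At Γ n A) (h : WF P Γ) :
    ∃ s, Typed P Γ A (.sort s) := by
  induction ha with
  | zero A Γ => cases h with | cons _ hA => exact ⟨_, .weak hA hA⟩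
  | succ B _ ih =>
    cases h with
    | cons hΓ hB =>
      obtain ⟨s, hs⟩ := ih hΓ
      exact ⟨s, .weak hs hB⟩

theorem pi_eq_lift {M A B : Tm S} (h : M.lift = .pi A B) :
    ∃ A₀ B₀, M = .pi A₀ B₀ ∧ A = A₀.lift ∧ B = B₀.rename (upRen Nat.succ) := by
  cases M with
  | pi A₀ B₀ =>
    simp only [lift, Tm.rename, Tm.pi.injEq] at h
    exact ⟨A₀, B₀, rfl, h.1.symm, h.2.symm⟩
  | _ => simp [lift, Tm.rename] at h

theorem Typed.pi_dom {Γ : List (Tm S)} {M T : Tm S} (h : Typed P Γ M T) :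
    ∀ {A B : Tm S}, M = .pi A B → ∃ s, Typed P Γ A (.sort s) := by
  induction h with
  | ax => intro A B h; cases h
  | var => intro A B h; cases h
  | weak _ hA ih _ =>
    intro A B h
    obtain ⟨A₀, B₀, rfl, rfl, rfl⟩ := pi_eq_lift h
    obtain ⟨s, hs⟩ := ih rfl
    exact ⟨s, .weak hs hA⟩
  | prod hA _ _ _ _ => intro A B h; cases h; exact ⟨_, hA⟩
  | lam => intro A B h; cases h
  | app => intro A B h; cases h
  | conv _ _ _ ih _ => exact ih

/-- A well-typed renaming. -/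
def Ren (ξ : ℕ → ℕ) (Γ Δ : List (Tm S)) : Prop :=
  ∀ n A, At Γ n A → At Δ (ξ n) (A.rename ξ)

theorem Ren.up {ξ : ℕ → ℕ} {Γ Δ : List (Tm S)} (h : Ren ξ Γ Δ) (A : Tm S) :
    Ren (upRen ξ) (A :: Γ) (A.rename ξ :: Δ) := by
  intro n B hB
  cases hB with
  | zero => rw [lift_rename]; exact .zero _ _
  | succ _ hB => rw [lift_rename]; exact .succ _ (h _ _ hB)

theorem Typed.rename {Γ : List (Tm S)} {M A : Tm S} (h : Typed P Γ M A) :
    ∀ {Δ : List (Tm S)} {ξ : ℕ → ℕ}, WF P Δ → Ren ξ Γ Δ →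
      Typed P Δ (M.rename ξ) (A.rename ξ) := by
  induction h with
  | ax ha => exact fun hΔ _ => .ax' hΔ ha
  | var _ _ => exact fun hΔ hξ => .var' hΔ (hξ _ _ (.zero _ _))
  | @weak Γ M B A s _ _ ih _ =>
    intro Δ ξ hΔ hξ
    have := ih (ξ := fun n => ξ (n + 1)) hΔ fun n C hC => by
      have h := hξ _ _ (At.succ A hC)
      rwa [lift, rename_rename] at h
    rwa [lift, lift, rename_rename, rename_rename]
  | prod _ _ hr ihA ihB =>
    intro Δ ξ hΔ hξ
    exact .prod (ihA hΔ hξ) (ihB (.cons hΔ (ihA hΔ hξ)) (hξ.up _)) hr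
  | lam _ _ ihM ihP =>
    intro Δ ξ hΔ hξ
    obtain ⟨s, hs⟩ := (ihP hΔ hξ).pi_dom rfl
    exact .lam (ihM (.cons hΔ hs) (hξ.up _)) (ihP hΔ hξ)
  | app _ _ ihM ihN =>
    intro Δ ξ hΔ hξ
    rw [inst_rename]
    exact .app (ihM hΔ hξ) (ihN hΔ hξ)
  | conv _ _ hc ihM ihB =>
    exact fun hΔ hξ => .conv (ihM hΔ hξ) (ihB hΔ hξ) (hc.rename _)

/-- A well-typed substitution. -/
def Sub (P : Spec S) (σ : ℕ → Tm S) (Γ Δ : List (Tm S)) : Prop :=
  ∀ n A, At Γ n A → Typed P Δ (σ n) (A.subst σ)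

theorem Sub.up {σ : ℕ → Tm S} {Γ Δ : List (Tm S)} (h : Sub P σ Γ Δ) (A : Tm S) {s : S}
    (hA : Typed P Δ (A.subst σ) (.sort s)) :
    Sub P (Tm.up σ) (A :: Γ) (A.subst σ :: Δ) := by
  intro n B hB
  cases hB with
  | zero => rw [lift_subst]; exact .var hA
  | succ _ hB => rw [lift_subst]; exact .weak (h _ _ hB) hA

theorem Typed.subst {Γ : List (Tm S)} {M A : Tm S} (h : Typed P Γ M A) :
    ∀ {Δ : List (Tm S)} {σ : ℕ → Tm S}, WF P Δ → Sub P σ Γ Δ →
      Typed P Δ (M.subst σ) (A.subst σ) := by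
  induction h with
  | ax ha => exact fun hΔ _ => .ax' hΔ ha
  | var _ _ => exact fun _ hσ => hσ _ _ (.zero _ _)
  | @weak Γ M B A s _ _ ih _ =>
    intro Δ σ hΔ hσ
    have := ih (σ := fun n => σ (n + 1)) hΔ fun n C hC => by
      have h := hσ _ _ (At.succ A hC)
      rwa [lift, subst_rename] at h
    rwa [lift, lift, subst_rename, subst_rename]
  | prod _ _ hr ihA ihB =>
    intro Δ σ hΔ hσ
    exact .prod (ihA hΔ hσ) (ihB (.cons hΔ (ihA hΔ hσ)) (hσ.up _ (ihA hΔ hσ))) hr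
  | lam _ _ ihM ihP =>
    intro Δ σ hΔ hσ
    obtain ⟨s, hs⟩ := (ihP hΔ hσ).pi_dom rfl
    exact .lam (ihM (.cons hΔ hs) (hσ.up _ hs)) (ihP hΔ hσ)
  | app _ _ ihM ihN =>
    intro Δ σ hΔ hσ
    rw [inst_subst]
    exact .app (ihM hΔ hσ) (ihN hΔ hσ)
  | conv _ _ hc ihM ihB =>
    exact fun hΔ hσ => .conv (ihM hΔ hσ) (ihB hΔ hσ) (hc.subst _)

theorem Typed.inst {Γ : List (Tm S)} {A M B N : Tm S} (hM : Typed P (A :: Γ) M B)
    (hN : Typed P Γ N A) : Typed P Γ (M.inst N) (B.inst N) :=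
  hM.subst hN.wf fun n C hC => by
    cases hC with
    | zero => show Typed P Γ N (A.lift.inst N); rwa [lift_subst_single]
    | succ _ hC =>
      show Typed P Γ (Tm.var _) (Tm.inst (Tm.lift _) N)
      rw [lift_subst_single]
      exact .var' hN.wf hC

theorem Typed.ctxConv {Γ : List (Tm S)} {A A' M B : Tm S} {s : S} (hM : Typed P (A :: Γ) M B)
    (hA' : Typed P Γ A' (.sort s)) (hc : Conv A A') : Typed P (A' :: Γ) M B := by
  have hΓ : WF P (A' :: Γ) := .cons hA'.wf hA'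
  cases hM.wf with
  | cons _ hA =>
    have := hM.subst (σ := fun n => Tm.var n) hΓ fun n C hC => by
      rw [subst_var]
      cases hC with
      | zero => exact .conv (.var hA') (.weak hA hA') ((hc.rename _).symm')
      | succ _ hC => exact .var' hΓ (.succ _ hC)
    rwa [subst_var, subst_var] at this

theorem Typed.gen_sort {Γ : List (Tm S)} {M T : Tm S} (h : Typed P Γ M T) :
    ∀ {s : S}, M = .sort s → ∃ s', P.Ax s s' ∧ Conv (.sort s') T := by
  induction h with
  | ax ha => intro s h; cases h; exact ⟨_, ha, .refl _⟩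
  | var => intro s h; cases h
  | @weak Γ M B A s _ _ ih _ =>
    intro s h
    cases M with
    | sort s₀ =>
      simp only [lift, Tm.rename, Tm.sort.injEq] at h
      subst h
      obtain ⟨s', ha, hc⟩ := ih rfl
      exact ⟨s', ha, hc.rename _⟩
    | _ => simp [lift, Tm.rename] at h
  | prod => intro s h; cases h
  | lam => intro s h; cases h
  | app => intro s h; cases h
  | conv _ _ hc ih _ =>
    intro s h
    obtain ⟨s', ha, hc'⟩ := ih h
    exact ⟨s', ha, hc'.trans' hc⟩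

theorem Typed.gen_var {Γ : List (Tm S)} {M T : Tm S} (h : Typed P Γ M T) :
    ∀ {n : ℕ}, M = .var n → ∃ A, At Γ n A ∧ Conv A T := by
  induction h with
  | ax => intro n h; cases h
  | var => intro n h; cases h; exact ⟨_, .zero _ _, .refl _⟩
  | @weak Γ M B A s _ _ ih _ =>
    intro n h
    cases M with
    | var m =>
      simp only [lift, Tm.rename, Tm.var.injEq] at h
      subst h
      obtain ⟨A', ha, hc⟩ := ih rfl
      exact ⟨_, .succ _ ha, hc.rename _⟩
    | _ => simp [lift, Tm.rename] at h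
  | prod => intro n h; cases h
  | lam => intro n h; cases h
  | app => intro n h; cases h
  | conv _ _ hc ih _ =>
    intro n h
    obtain ⟨A', ha, hc'⟩ := ih h
    exact ⟨A', ha, hc'.trans' hc⟩

theorem WF.ren_succ {Γ : List (Tm S)} {A : Tm S} : Ren Nat.succ Γ (A :: Γ) :=
  fun _ _ h => .succ _ h

theorem WF.lift_body {Γ : List (Tm S)} {A A₀ : Tm S} {s s₀ : S}
    (hA : Typed P Γ A (.sort s)) (hA₀ : Typed P Γ A₀ (.sort s₀)) :
    WF P (A₀.lift :: A :: Γ) :=
  .cons (.cons hA.wf hA) (.weak hA₀ hA)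

theorem Typed.gen_pi {Γ : List (Tm S)} {M T : Tm S} (h : Typed P Γ M T) :
    ∀ {A B : Tm S}, M = .pi A B → ∃ s₁ s₂ s₃, Typed P Γ A (.sort s₁) ∧
      Typed P (A :: Γ) B (.sort s₂) ∧ P.Rule s₁ s₂ s₃ ∧ Conv (.sort s₃) T := by
  induction h with
  | ax => intro A B h; cases h
  | var => intro A B h; cases h
  | weak _ hC ih _ =>
    intro A B h
    obtain ⟨A₀, B₀, rfl, rfl, rfl⟩ := pi_eq_lift h
    obtain ⟨s₁, s₂, s₃, hA, hB, hr, hc⟩ := ih rfl
    exact ⟨s₁, s₂, s₃, .weak hA hC, hB.rename (WF.lift_body hC hA) (Ren.up WF.ren_succ _), hr,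
      hc.rename _⟩
  | prod hA hB hr _ _ => intro A B h; cases h; exact ⟨_, _, _, hA, hB, hr, .refl _⟩
  | lam => intro A B h; cases h
  | app => intro A B h; cases h
  | conv _ _ hc ih _ =>
    intro A B h
    obtain ⟨s₁, s₂, s₃, hA, hB, hr, hc'⟩ := ih h
    exact ⟨s₁, s₂, s₃, hA, hB, hr, hc'.trans' hc⟩

theorem Typed.gen_lam {Γ : List (Tm S)} {M T : Tm S} (h : Typed P Γ M T) :
    ∀ {A b : Tm S}, M = .lam A b → ∃ B s, Typed P (A :: Γ) b B ∧
      Typed P Γ (.pi A B) (.sort s) ∧ Conv (.pi A B) T := by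
  induction h with
  | ax => intro A b h; cases h
  | var => intro A b h; cases h
  | @weak Γ M B C s _ hC ih _ =>
    intro A b h
    cases M with
    | lam A₀ b₀ =>
      simp only [lift, Tm.rename, Tm.lam.injEq] at h
      obtain ⟨rfl, rfl⟩ := h
      obtain ⟨B₁, s₁, hb, hp, hc⟩ := ih rfl
      obtain ⟨s₂, hA⟩ := hp.pi_dom rfl
      exact ⟨_, s₁, hb.rename (WF.lift_body hC hA) (Ren.up WF.ren_succ _),
        hp.rename (.cons hC.wf hC) WF.ren_succ, hc.rename _⟩
    | _ => simp [lift, Tm.rename] at h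
  | prod => intro A b h; cases h
  | lam hb hp _ _ => intro A b h; cases h; exact ⟨_, _, hb, hp, .refl _⟩
  | app => intro A b h; cases h
  | conv _ _ hc ih _ =>
    intro A b h
    obtain ⟨B', s', hb, hp, hc'⟩ := ih h
    exact ⟨B', s', hb, hp, hc'.trans' hc⟩

theorem Typed.gen_app {Γ : List (Tm S)} {M T : Tm S} (h : Typed P Γ M T) :
    ∀ {f a : Tm S}, M = .app f a → ∃ A B, Typed P Γ f (.pi A B) ∧ Typed P Γ a A ∧
      Conv (B.inst a) T := by
  induction h with
  | ax => intro f a h; cases h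
  | var => intro f a h; cases h
  | @weak Γ M B C s _ hC ih _ =>
    intro f a h
    cases M with
    | app f₀ a₀ =>
      simp only [lift, Tm.rename, Tm.app.injEq] at h
      obtain ⟨rfl, rfl⟩ := h
      obtain ⟨A₁, B₁, hf, ha, hc⟩ := ih rfl
      refine ⟨_, _, hf.rename (.cons hC.wf hC) WF.ren_succ,
        ha.rename (.cons hC.wf hC) WF.ren_succ, ?_⟩
      rw [← inst_rename]
      exact hc.rename _
    | _ => simp [lift, Tm.rename] at h
  | prod => intro f a h; cases h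
  | lam => intro f a h; cases h
  | app hf ha _ _ => intro f a h; cases h; exact ⟨_, _, hf, ha, .refl _⟩
  | conv _ _ hc ih _ =>
    intro f a h
    obtain ⟨A', B', hf, ha, hc'⟩ := ih h
    exact ⟨A', B', hf, ha, hc'.trans' hc⟩

theorem Typed.correct {Γ : List (Tm S)} {M A : Tm S} (h : Typed P Γ M A) :
    (∃ s, A = .sort s) ∨ ∃ s, Typed P Γ A (.sort s) := by
  induction h with
  | ax => exact .inl ⟨_, rfl⟩
  | var hA _ => exact .inr ⟨_, .weak hA hA⟩
  | weak _ hA ih _ =>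
    rcases ih with ⟨s, rfl⟩ | ⟨s, hs⟩
    · exact .inl ⟨s, rfl⟩
    · exact .inr ⟨s, .weak hs hA⟩
  | prod => exact .inl ⟨_, rfl⟩
  | lam _ hp _ _ => exact .inr ⟨_, hp⟩
  | app _ hN ih _ =>
    rcases ih with ⟨s, h⟩ | ⟨s, hs⟩
    · cases h
    · obtain ⟨s₁, s₂, s₃, -, hB, -, -⟩ := hs.gen_pi rfl
      exact .inr ⟨s₂, hB.inst hN⟩
  | conv _ hB _ _ _ => exact .inr ⟨_, hB⟩

theorem Typed.pi_parts {Γ : List (Tm S)} {M A B : Tm S} (h : Typed P Γ M (.pi A B)) :
    ∃ s₁ s₂ s₃, Typed P Γ A (.sort s₁) ∧ Typed P (A :: Γ) B (.sort s₂) ∧ P.Rule s₁ s₂ s₃ := by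
  rcases h.correct with ⟨s, h⟩ | ⟨s, hs⟩
  · cases h
  · obtain ⟨s₁, s₂, s₃, hA, hB, hr, -⟩ := hs.gen_pi rfl
    exact ⟨s₁, s₂, s₃, hA, hB, hr⟩

theorem step_rename_inv {M : Tm S} : ∀ {ξ : ℕ → ℕ} {N : Tm S}, Step (M.rename ξ) N →
    ∃ N', Step M N' ∧ N = N'.rename ξ := by
  induction M with
  | var n => intro ξ N h; cases h
  | sort s => intro ξ N h; cases h
  | app f a ihf iha =>
    intro ξ N h
    generalize hM : Tm.rename ξ (.app f a) = M' at h
    cases h with
    | beta A b C =>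
      simp only [Tm.rename, Tm.app.injEq] at hM
      cases f with
      | lam A₀ b₀ =>
        simp only [Tm.rename, Tm.lam.injEq] at hM
        obtain ⟨⟨-, rfl⟩, rfl⟩ := hM
        exact ⟨_, .beta A₀ b₀ a, (inst_rename _ _ _).symm⟩
      | _ => simp [Tm.rename] at hM
    | appL c hf =>
      simp only [Tm.rename, Tm.app.injEq] at hM
      obtain ⟨rfl, rfl⟩ := hM
      obtain ⟨f', hf', rfl⟩ := ihf hf
      exact ⟨_, .appL a hf', rfl⟩
    | appR g ha =>
      simp only [Tm.rename, Tm.app.injEq] at hM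
      obtain ⟨rfl, rfl⟩ := hM
      obtain ⟨a', ha', rfl⟩ := iha ha
      exact ⟨_, .appR f ha', rfl⟩
    | _ => simp [Tm.rename] at hM
  | lam A b ihA ihb =>
    intro ξ N h
    generalize hM : Tm.rename ξ (.lam A b) = M' at h
    cases h with
    | lamL c hA =>
      simp only [Tm.rename, Tm.lam.injEq] at hM
      obtain ⟨rfl, rfl⟩ := hM
      obtain ⟨A', hA', rfl⟩ := ihA hA
      exact ⟨_, .lamL b hA', rfl⟩
    | lamR g hb =>
      simp only [Tm.rename, Tm.lam.injEq] at hM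
      obtain ⟨rfl, rfl⟩ := hM
      obtain ⟨b', hb', rfl⟩ := ihb hb
      exact ⟨_, .lamR A hb', rfl⟩
    | _ => simp [Tm.rename] at hM
  | pi A b ihA ihb =>
    intro ξ N h
    generalize hM : Tm.rename ξ (.pi A b) = M' at h
    cases h with
    | piL c hA =>
      simp only [Tm.rename, Tm.pi.injEq] at hM
      obtain ⟨rfl, rfl⟩ := hM
      obtain ⟨A', hA', rfl⟩ := ihA hA
      exact ⟨_, .piL b hA', rfl⟩
    | piR g hb =>
      simp only [Tm.rename, Tm.pi.injEq] at hM
      obtain ⟨rfl, rfl⟩ := hM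
      obtain ⟨b', hb', rfl⟩ := ihb hb
      exact ⟨_, .piR A hb', rfl⟩
    | _ => simp [Tm.rename] at hM

theorem Typed.step {Γ : List (Tm S)} {M A : Tm S} (h : Typed P Γ M A) :
    ∀ {M' : Tm S}, Step M M' → Typed P Γ M' A := by
  induction h with
  | ax => intro M' h; cases h
  | var => intro M' h; cases h
  | weak _ hA ih _ =>
    intro M' hM'
    obtain ⟨N, hN, rfl⟩ := step_rename_inv hM'
    exact .weak (ih hN) hA
  | prod hA hB hr ihA ihB =>
    intro M' hM'
    cases hM' with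
    | piL _ h => exact .prod (ihA h) (hB.ctxConv (ihA h) (Relation.EqvGen.rel _ _ h)) hr
    | piR _ h => exact .prod hA (ihB h) hr
  | lam hM hp ihM ihp =>
    intro M' hM'
    cases hM' with
    | lamL _ h =>
      have hp' := ihp (.piL _ h)
      obtain ⟨s, hs⟩ := hp'.pi_dom rfl
      exact .conv (.lam (hM.ctxConv hs (Relation.EqvGen.rel _ _ h)) hp') hp
        (Conv.symm' (Relation.EqvGen.rel _ _ (.piL _ h)))
    | lamR _ h => exact .lam (ihM h) hp
  | @app Γ A B M N hM hN ihM ihN =>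
    intro M' hM'
    obtain ⟨s₁, s₂, s₃, hA, hB, -⟩ := hM.pi_parts
    cases hM' with
    | beta A₀ b _ =>
      obtain ⟨B₀, s, hb, hp, hc⟩ := hM.gen_lam rfl
      obtain ⟨s', hA₀⟩ := hp.pi_dom rfl
      exact .conv (hb.inst (.conv hN hA₀ hc.pi_inj.1.symm')) (hB.inst hN) (hc.pi_inj.2.subst _)
    | appL _ h => exact .app (ihM h) hN
    | appR _ h =>
      exact .conv (.app hM (ihN h)) (hB.inst hN)
        (Conv.symm' (Steps.conv (Steps.substR B fun n => by
          cases n with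
          | zero => exact .single h
          | succ n => exact .refl)))
  | conv _ hB hc ih _ => exact fun h => .conv (ih h) hB hc

theorem Typed.steps {Γ : List (Tm S)} {M M' A : Tm S} (h : Typed P Γ M A) (hs : Steps M M') :
    Typed P Γ M' A := by
  induction hs with
  | refl => exact h
  | tail _ h' ih => exact ih.step h'

theorem Typed.unique (hfun : ∀ {a b c : S}, P.Ax a b → P.Ax a c → b = c)
    (hrule : ∀ {a b c : S}, P.Rule a b c → c = b) :
    ∀ {Γ : List (Tm S)} {M A A' : Tm S}, Typed P Γ M A → Typed P Γ M A' → Conv A A' := by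
  intro Γ M
  induction M generalizing Γ with
  | var n =>
    intro A A' h h'
    obtain ⟨B, hB, hc⟩ := h.gen_var rfl
    obtain ⟨B', hB', hc'⟩ := h'.gen_var rfl
    exact hc.symm'.trans' ((hB.unique hB') ▸ hc')
  | sort s =>
    intro A A' h h'
    obtain ⟨s₁, ha, hc⟩ := h.gen_sort rfl
    obtain ⟨s₂, ha', hc'⟩ := h'.gen_sort rfl
    exact hc.symm'.trans' ((hfun ha ha') ▸ hc')
  | app f a ihf _ =>
    intro A A' h h'
    obtain ⟨C, D, hf, -, hc⟩ := h.gen_app rfl
    obtain ⟨C', D', hf', -, hc'⟩ := h'.gen_app rfl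
    exact hc.symm'.trans' (((ihf hf hf').pi_inj.2.subst _).trans' hc')
  | lam C b _ ihb =>
    intro A A' h h'
    obtain ⟨B, s, hb, -, hc⟩ := h.gen_lam rfl
    obtain ⟨B', s', hb', -, hc'⟩ := h'.gen_lam rfl
    have hBB : Conv (Tm.pi C B) (Tm.pi C B') := by
      obtain ⟨L, h1, h2⟩ := (ihb hb hb').join
      exact .of_join (Steps.pi .refl h1) (Steps.pi .refl h2)
    exact hc.symm'.trans' (hBB.trans' hc')
  | pi C D _ ihD =>
    intro A A' h h'
    obtain ⟨s₁, s₂, s₃, -, hD, hr, hc⟩ := h.gen_pi rfl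
    obtain ⟨t₁, t₂, t₃, -, hD', hr', hc'⟩ := h'.gen_pi rfl
    have e : s₃ = t₃ := by rw [hrule hr, hrule hr', (ihD hD hD').sort_inj]
    exact hc.symm'.trans' (e ▸ hc')

end Vale.Agent.P340
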