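import Vale.Agent.P340.Defs

/-!
# P340: the substitution calculus
-/

universe u

namespace Vale.Agent.P340.Tm

variable {S : Type u}

theorem upRen_comp (ξ ζ : ℕ → ℕ) : (fun n => upRen ξ (upRen ζ n)) = upRen fun n => ξ (ζ n) := by
  funext n; cases n <;> rfl

theorem upRen_id : upRen (fun n => n) = fun n => n := by
  funext n; cases n <;> rfl

theorem rename_id (M : Tm S) : M.rename (fun n => n) = M := by
  induction M with
  | var n => rfl
  | sort s => rfl
  | app f a hf ha => simp [rename, hf, ha]
  | lam A b hA hb => simp [rename, upRen_id, hA, hb]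
  | pi A b hA hb => simp [rename, upRen_id, hA, hb]

theorem rename_rename (M : Tm S) :
    ∀ ξ ζ : ℕ → ℕ, (M.rename ζ).rename ξ = M.rename fun n => ξ (ζ n) := by
  induction M with
  | var n => exact fun _ _ => rfl
  | sort s => exact fun _ _ => rfl
  | app f a hf ha => intro ξ ζ; simp [rename, hf, ha]
  | lam A b hA hb => intro ξ ζ; simp [rename, upRen_comp, hA, hb]
  | pi A b hA hb => intro ξ ζ; simp [rename, upRen_comp, hA, hb]

theorem up_comp_upRen (σ : ℕ → Tm S) (ζ : ℕ → ℕ) :
    (fun n => up σ (upRen ζ n)) = up fun n => σ (ζ n) := by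
  funext n; cases n <;> rfl

theorem subst_rename (M : Tm S) :
    ∀ (σ : ℕ → Tm S) (ζ : ℕ → ℕ), (M.rename ζ).subst σ = M.subst fun n => σ (ζ n) := by
  induction M with
  | var n => exact fun _ _ => rfl
  | sort s => exact fun _ _ => rfl
  | app f a hf ha => intro σ ζ; simp [rename, subst, hf, ha]
  | lam A b hA hb => intro σ ζ; simp [rename, subst, up_comp_upRen, hA, hb]
  | pi A b hA hb => intro σ ζ; simp [rename, subst, up_comp_upRen, hA, hb]

theorem upRen_up (σ : ℕ → Tm S) (ξ : ℕ → ℕ) :
    (fun n => (up σ n).rename (upRen ξ)) = up fun n => (σ n).rename ξ := by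
  funext n; cases n with
  | zero => rfl
  | succ n => simp only [up, lift, rename_rename]; rfl

theorem rename_subst (M : Tm S) :
    ∀ (σ : ℕ → Tm S) (ξ : ℕ → ℕ), (M.subst σ).rename ξ = M.subst fun n => (σ n).rename ξ := by
  induction M with
  | var n => exact fun _ _ => rfl
  | sort s => exact fun _ _ => rfl
  | app f a hf ha => intro σ ζ; simp [rename, subst, hf, ha]
  | lam A b hA hb => intro σ ζ; simp [rename, subst, upRen_up, hA, hb]
  | pi A b hA hb => intro σ ζ; simp [rename, subst, upRen_up, hA, hb]

theorem up_comp (σ τ : ℕ → Tm S) :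
    (fun n => (up τ n).subst (up σ)) = up fun n => (τ n).subst σ := by
  funext n; cases n with
  | zero => rfl
  | succ n => simp only [up, lift, subst_rename, rename_subst]

theorem subst_subst (M : Tm S) :
    ∀ σ τ : ℕ → Tm S, (M.subst τ).subst σ = M.subst fun n => (τ n).subst σ := by
  induction M with
  | var n => exact fun _ _ => rfl
  | sort s => exact fun _ _ => rfl
  | app f a hf ha => intro σ τ; simp [subst, hf, ha]
  | lam A b hA hb => intro σ τ; simp [subst, up_comp, hA, hb]
  | pi A b hA hb => intro σ τ; simp [subst, up_comp, hA, hb]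

theorem up_var : up (fun n => (var n : Tm S)) = fun n => var n := by
  funext n; cases n <;> rfl

theorem subst_var (M : Tm S) : M.subst (fun n => var n) = M := by
  induction M with
  | var n => rfl
  | sort s => rfl
  | app f a hf ha => simp [subst, hf, ha]
  | lam A b hA hb => simp [subst, up_var, hA, hb]
  | pi A b hA hb => simp [subst, up_var, hA, hb]

theorem up_ren (ξ : ℕ → ℕ) :
    up (fun n => (var (ξ n) : Tm S)) = fun n => var (upRen ξ n) := by
  funext n; cases n <;> rfl

theorem rename_eq_subst (M : Tm S) : ∀ ξ : ℕ → ℕ, M.rename ξ = M.subst fun n => var (ξ n) := by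
  induction M with
  | var n => exact fun _ => rfl
  | sort s => exact fun _ => rfl
  | app f a hf ha => intro ξ; simp [rename, subst, hf, ha]
  | lam A b hA hb => intro ξ; simp [rename, subst, up_ren, hA, hb]
  | pi A b hA hb => intro ξ; simp [rename, subst, up_ren, hA, hb]

@[simp] theorem lift_subst_single (M N : Tm S) : M.lift.inst N = M := by
  unfold lift inst
  rw [subst_rename]
  exact subst_var M

theorem lift_rename (M : Tm S) (ξ : ℕ → ℕ) : M.lift.rename (upRen ξ) = (M.rename ξ).lift := by
  unfold lift
  rw [rename_rename, rename_rename]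
  rfl

theorem lift_subst (M : Tm S) (σ : ℕ → Tm S) : M.lift.subst (up σ) = (M.subst σ).lift := by
  unfold lift
  rw [subst_rename, rename_subst]
  rfl

theorem inst_rename (M N : Tm S) (ξ : ℕ → ℕ) :
    (M.inst N).rename ξ = (M.rename (upRen ξ)).inst (N.rename ξ) := by
  unfold inst
  rw [rename_subst, subst_rename]
  congr 1
  funext n; cases n <;> rfl

theorem inst_subst (M N : Tm S) (σ : ℕ → Tm S) :
    (M.inst N).subst σ = (M.subst (up σ)).inst (N.subst σ) := by
  unfold inst
  rw [subst_subst, subst_subst]
  congr 1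
  funext n; cases n with
  | zero => rfl
  | succ n =>
    simp only [up, lift, subst_rename]
    exact (subst_var (σ n)).symm

end Vale.Agent.P340.Tm
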